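import Vale.Agent.N279.Main

/-!
# Nagata-type bounds with unequal weights and on the quadric, in every characteristic

(1) concerns `r` points of the affine plane over any field `K` whose `2 r` coordinates are
algebraically independent over a subfield `F` (for instance the prime field). A polynomial `P` has
multiplicity at least `m` at `q` when it lies in the `m`-th power of the maximal ideal of `q`.
The classes `e H - ∑_{i ∈ G} E_i - w ∑_{i ∉ G} E_i` on the blown-up plane and the analogous classes
of bidegree `(c, 2)` on the blown-up product of two lines, with `w` chosen so that the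
self-intersection is zero, are strictly positive on all such curves.

(2) says that these bounds cannot be improved by any constant factor.
-/

namespace Vale.Agent.Results.P279.A0NagataAll

open MvPolynomial Vale.Agent.P279 Vale.Agent.N279

theorem result :
    (∀ (F K : Type) [Field F] [Field K] [Algebra F K] (r : ℕ) (q : Fin r → Fin 2 → K),
      AlgebraicIndependent F (fun x : Fin r × Fin 2 => q x.1 x.2) →
      ∀ (P : MvPolynomial (Fin 2) K) (m : Fin r → ℕ), 1 ≤ P.totalDegree →
        (∀ i, P ∈ RingHom.ker (eval (q i)) ^ m i) →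
        (∀ (e : ℕ) (G : Finset (Fin r)), 3 ≤ e → G.card < e ^ 2 → e ^ 2 < r →
          wsum (e ^ 2) G m < e * P.totalDegree) ∧
        (∀ (c : ℕ) (G : Finset (Fin r)), 2 ≤ c → G.card < 4 * c → 4 * c < r →
          wsum (4 * c) G m < 2 * P.degreeOf 0 + c * P.degreeOf 1)) ∧
    (∀ (K : Type) [Field K] (r : ℕ) (q : Fin r → Fin 2 → K) (G : Finset (Fin r)) (ε : ℝ), 0 < ε →
      (∀ e : ℕ, G.card < e ^ 2 → e ^ 2 < r →
        ∃ (P : MvPolynomial (Fin 2) K) (m : Fin r → ℕ), 1 ≤ P.totalDegree ∧
          (∀ i, P ∈ RingHom.ker (eval (q i)) ^ m i) ∧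
          (e : ℝ) * P.totalDegree < (1 + ε) * wsum (e ^ 2) G m) ∧
      (∀ c : ℕ, G.card < 4 * c → 4 * c < r →
        ∃ (P : MvPolynomial (Fin 2) K) (m : Fin r → ℕ), 1 ≤ P.totalDegree ∧
          (∀ i, P ∈ RingHom.ker (eval (q i)) ^ m i) ∧
          (2 : ℝ) * P.degreeOf 0 + c * P.degreeOf 1 < (1 + ε) * wsum (4 * c) G m)) := by
  refine ⟨fun F K _ _ _ r q hq P m hd hm => ⟨fun e G he hG hr => ?_, fun c G hc hG hr => ?_⟩,
    fun K _ r q G ε hε =>
      ⟨fun e hG hr => sharp_plane q hr hG hε, fun c hG hr => sharp_quad q hr hG hε⟩⟩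
  · exact plane hq hd he hr hG (ex_tri hd hm)
  · exact quad hq (ex_box hd hm).1 hc hr hG (ex_box hd hm).2

end Vale.Agent.Results.P279.A0NagataAll
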