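import Vale.Agent.N279S.Main

/-!
# Second order terms beyond Nagata's inequality

Very general tuples are those outside countably many hypersurfaces `G n = 0` of `(P^2)^r`.
A form `F` has multiplicity at least `m` at `p` when it lies in the `m`-th power of the ideal of
polynomials vanishing at a vector representing `p`.

The first two clauses sharpen Nagata's inequality by a term of order `r`.
The last clause gives the dimension of the linear system of curves of degree `d` with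
multiplicities `m i`: the conditions are independent once `d ≥ (M + 1 / 2) √ρ - 3 / 4`.
-/

namespace Vale.Agent.Results.P279.A0SecondOrder

open MvPolynomial Vale.Agent.P279 Vale.Agent.N279 Vale.Agent.N279S

theorem result (r : ℕ) : ∃ G : ℕ → MvPolynomial (Fin r × Fin 3) ℂ,
    (∀ n, (∀ i, ∃ e : ℕ, (G n).IsWeightedHomogeneous (fun x => if x.1 = i then 1 else 0) e) ∧
      ∃ p : Fin r → Projectivization ℂ (Fin 3 → ℂ), Function.Injective p ∧
        eval (fun x => (p x.1).rep x.2) (G n) ≠ 0) ∧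
    ∀ p : Fin r → Projectivization ℂ (Fin 3 → ℂ), Function.Injective p →
      (∀ n, eval (fun x => (p x.1).rep x.2) (G n) ≠ 0) → ∀ (d : ℕ) (m : Fin r → ℕ),
      (∀ F : MvPolynomial (Fin 3) ℂ, 10 ≤ r → 1 ≤ d → F.IsHomogeneous d → F ≠ 0 →
        (∀ i, F ∈ RingHom.ker (eval (p i).rep) ^ m i) →
        ((∀ i, 1 ≤ m i) → ∀ t : ℕ, t * √(r : ℝ) ≤ d →
          2 * ∑ i, (m i : ℝ) + r < 2 * (d + 2) * √(r : ℝ) + (d + 2 - t * √(r : ℝ)) ^ 2) ∧
        (∀ μ : ℕ, 1 ≤ μ → (∀ i, μ ≤ m i) → (μ + √2 - 1) * √(r : ℝ) - 2 < d)) ∧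
      (∀ (M : ℕ) (ρ : ℝ), 9 ≤ ρ → (∀ i, m i ≤ M) → ∑ i, (m i : ℝ) ≤ ρ * M →
        (M + 1 / 2) * √ρ ≤ d + 3 / 4 →
        Module.finrank ℂ (homogeneousSubmodule (Fin 3) ℂ d ⊓
          ⨅ i, (RingHom.ker (eval (p i).rep) ^ m i).restrictScalars ℂ : Submodule ℂ _) +
          ∑ i, (m i + 1).choose 2 = (d + 2).choose 2) := by
  refine hypersurfaces (veryGenerally_of_algInd r _ fun p _ hp hq d m => ?_)
  set q : Fin r → Fin 2 → ℂ := fun i k => (p i).rep k.castSucc / (p i).rep 2 with hq'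
  refine ⟨fun F hr hd hF h0 hm => ?_, fun M ρ hρ hM hS hd =>
    finrank_eq (v := fun i => (p i).rep) hp (jets (q := q) hq hρ hM hS hd)⟩
  have h : Ex (tri d) m q := ex_dehom (v := fun i => (p i).rep) hp hF h0 hm
  exact ⟨second (q := q) hq hr hd h, fun μ hμ h1 => uniform (q := q) hq hr hd hμ
      (ex_dehom (v := fun i => (p i).rep) hp hF h0 fun i => Ideal.pow_le_pow_right (h1 i) (hm i))⟩

end Vale.Agent.Results.P279.A0SecondOrder
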