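import Vale.Agent.N279V.Main

/-!
# Nagata's inequality for very general quasi-monomial valuations

(1) concerns `r` germs of smooth curves `y = ξ i (x - a i)` over any field and real weights
`t i ≥ 1`; only the jets that matter for the valuations are assumed algebraically independent.
For `t i = 1` the valuation is the multiplicity at a point, for an integer `t i = n` it is the sum
of the multiplicities at `n` infinitely near points along the germ.

(2) says that the bound in (1) cannot be improved by any constant factor.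
-/

namespace Vale.Agent.Results.P279.A0Valuations

open Vale.Agent.N279V

theorem result :
    (∀ (F K : Type) [Field F] [Field K] [Algebra F K] (r : ℕ) (a : Fin r → K)
      (ξ : Fin r → PowerSeries K) (t : Fin r → ℝ), (∀ i, 1 ≤ t i) →
      AlgebraicIndependent F (Sum.elim a fun x : {x : Fin r × ℕ // (x.2 : ℝ) < t x.1} =>
        PowerSeries.coeff x.1.2 (ξ x.1.1)) →
      (9 ≤ ∑ i, t i → ∀ P : MvPolynomial (Fin 2) K, 1 ≤ P.totalDegree →
        ∑ i, val (a i) (ξ i) (t i) P ≤ P.totalDegree * √(∑ i, t i)) ∧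
      (9 < ∑ i, t i → (∀ P : MvPolynomial (Fin 2) K, 1 ≤ P.totalDegree →
        ∑ i, val (a i) (ξ i) (t i) P < P.totalDegree * √(∑ i, t i)) ∧ ¬ (rees a ξ t).FG)) ∧
    (∀ (K : Type) [Field K] (r : ℕ) (a : Fin r → K) (ξ : Fin r → PowerSeries K) (t : Fin r → ℝ),
      1 ≤ r → (∀ i, 1 ≤ t i) → ∀ ε : ℝ, 0 < ε → ∃ P : MvPolynomial (Fin 2) K, 1 ≤ P.totalDegree ∧
        P.totalDegree * √(∑ i, t i) < (1 + ε) * ∑ i, val (a i) (ξ i) (t i) P) :=
  ⟨fun _ _ _ _ _ _ _ _ _ ht hv =>
    ⟨fun hT _ hd => val_le ht hv hd hT, fun hT => ⟨fun _ hd => val_lt ht hv hd hT le_rfl,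
      not_fg ht hv hT⟩⟩, fun _ _ _ a ξ _ hr ht _ hε => sharp hr a ξ ht hε⟩

end Vale.Agent.Results.P279.A0Valuations
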